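import Vale.Agent.P088.R2.H794.RowLog
import Vale.Agent.P088.R2.H961.G.Top
import Vale.Agent.P088.R2.H16.Estg
import Vale.Agent.P088.R2.H820.SolG
import Vale.Agent.P088.R2.H901.T2A
import Vale.Agent.P088.R2.H901.VecP
import Vale.Agent.P088.R2.H948.G.Row
import Vale.Agent.P088.R2.H948.T.Row
import Vale.Agent.P088.R2.H475.RowLim
import Vale.Agent.P088.R2.H285.J.RowDirg
import Vale.Agent.P088.R2.H808.J.T2B
import Vale.Agent.P088.R2.H808.J.T2P
import Vale.Agent.P088.R2.H347.J.T2G
import Vale.Agent.P088.R2.H647.T2

/-!
# T2, closed

The theorem of the second step (near flat domains, potentials and small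
connections) without hypotheses.
-/

namespace Vale.Agent.P088.HY

open H794

/-- The strong scalar estimate. -/
theorem estsC : H16.RowESTs :=
  H16.rowESTs rowEID (rowEQB rowEBD) (H856.rowEQC rowEBD) (rowEQX rowEBD) rowEGAP rowEOS
    (rowEN1 rowEOS) (rowEN2 rowEGAP rowEIK (rowEQB rowEBD))

/-- Solvability of the overdetermined system with connections and potentials. -/
theorem solgC : RowSOLG :=
  Vale.Agent.P088.R2.H820.rowSOLG (H16.rowESTG estsC rowEGAP) Vale.Agent.P088.R2.H961.rowTOPG
    rowHYP

/-- The limit. -/
theorem limC : RowLIM := H475.rowLIM solgC rowINPG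

/-- The orthogonality. -/
theorem ortgC : RowORTG := rowORTG rowINPG

/-- **T2**, real form: two pairs of connection and potential over the same metric near
the flat one, which have the same Hermitian identity on `Ω`, are gauge equivalent. -/
theorem t2C : RowT2 :=
  H647.rowT2 (rowT2A (H285.rowDIRG rowHYP) (rowT2P limC ortgC)) H347.rowT2G (rowT2B limC ortgC)

/-- **T2**, complex form, for two conformal metrics. -/
theorem t2CC : RowT2C := rowT2C t2C

end Vale.Agent.P088.HY
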